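import Crest.Agent.N325.Ml.Defs
import Crest.Agent.N325.P2.Util
import Crest.Agent.N325.M0.Mon
import Crest.Agent.N325.Lst.ListR

-- ▼ part N325/Ml/Sgn
section

/-!
# Row 325, part II (helper46): signs of the potentials, the log, skipped darts
-/

set_option autoImplicit false
open Finset

namespace Crest.Agent.N325.P2

open Crest.Agent.N325.Tw Crest.Agent.N325.Ip Crest.Agent.N325.Mt Crest.Agent.N325.Bf

theorem Cmb.sum_cw {G : Gf} {d : Dt} (h : Cmb G d) :
    ∑ c ∈ (range G.n).filter (isC G d), d.cw.get c = #((range G.n).filter (d.st.get · = 2)) := by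
  rw [card_eq_sum_card_fiberwise (f := d.cls.get) (t := (range G.n).filter (isC G d))]
  · refine sum_congr rfl fun c hc => ?_
    have k := (mem_filter.1 hc).2
    rw [h.cw c k, ← List.toFinset_card_of_nodup (h.nodup c k)]
    congr 1
    ext v
    simp only [List.mem_toFinset, h.mem c k, mem_filter, mem_range, and_assoc]
  · intro v hv
    simp only [coe_filter, mem_range, Set.mem_ofPred_eq] at hv ⊢
    exact ⟨(h.out v hv.1 hv.2).1, h.out v hv.1 hv.2⟩

theorem QOk.pop {G : Gf} {d : Dt} (w : G.WF) (c : Cmb G d) (h : QOk G d) {o : ℕ} {q : List ℕ}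
    (e : d.Q = o :: q) (k : Done G d o) : QOk G { d with Q := q } := by
  refine ⟨fun o' a => h.lt o' (e ▸ List.mem_cons_of_mem _ a), fun o' a => ?_⟩
  change o' ∈ q ∨ Done G d o' ∨ (d.st.get (G.hd o') = 2 ∧ rv o' ∈ q)
  rcases h.cmp o' a with b | b | ⟨b, b'⟩
  · rcases List.mem_cons.1 (e ▸ b) with rfl | b
    · exact .inr (.inl k)
    · exact .inl b
  · exact .inr (.inl b)
  · rcases List.mem_cons.1 (e ▸ b') with rfl | b'
    · refine .inr (.inl ?_)
      rcases k with k | k | k | k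
      · exact absurd b (by simpa using k)
      · exact .inl (by simpa using (c.pr _ (w.rv_lt a) k).2.1)
      · rw [Gf.tl_rv, Gf.hd_rv] at k
        exact .inr (.inr (.inl (by rw [← k, c.mt_mt (w.hd_lt a)])))
      · rw [Gf.tl_rv, Gf.hd_rv] at k
        exact .inr (.inr (.inr ⟨b, k.2.symm⟩))
    · exact .inr (.inr ⟨b, b'⟩)

namespace Cx
variable {T : Type} {X : Cx T} {s : Ip.St T} {N : Net} {d : Dt}

theorem Ok.lM_mem (h : X.Ok) : 0 ≤ lM X.P X.Bd ∧ lM X.P X.Bd ≤ X.Lg := by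
  have a : (1 : ℝ) ≤ X.P.D := by exact_mod_cast h.D_pos
  have b : (X.P.D : ℝ) ≤ X.Bd.Mu := by
    have := h.BD_le; rw [h.Mu] at this; exact_mod_cast (by omega : X.P.D ≤ X.Bd.Mu)
  exact ⟨Real.log_nonneg ((one_le_div (by linarith)).2 b),
    Real.log_le_log (div_pos (by linarith) (by linarith)) (div_le_self (by linarith) a)⟩

theorem Ok.offs_le (h : X.Ok) (c : Cmb X.G d) : X.offs d ≤ 2 * X.C.Z * X.G.n * X.Lg := by
  obtain ⟨l0, l1⟩ := h.lM_mem
  have a : ∑ v ∈ (range X.G.n).filter (isC X.G d),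
      (X.C.Z * (d.cw.get v + 1) : ℝ) * (lM X.P X.Bd - Real.log (d.cw.get v + 1)) ≤
      ∑ v ∈ (range X.G.n).filter (isC X.G d), (d.cw.get v : ℝ) * (2 * X.C.Z * lM X.P X.Bd) := by
    refine sum_le_sum fun v hv => ?_
    have k : (1 : ℝ) ≤ d.cw.get v := by exact_mod_cast (c.cw_le (mem_filter.1 hv).2).1
    have : 0 ≤ Real.log (d.cw.get v + 1) := Real.log_nonneg (by linarith)
    have z : (0 : ℝ) ≤ X.C.Z := Nat.cast_nonneg _
    calc _ ≤ (X.C.Z * (d.cw.get v + 1) : ℝ) * lM X.P X.Bd :=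
          mul_le_mul_of_nonneg_left (by linarith) (by positivity)
      _ ≤ (X.C.Z * (2 * d.cw.get v) : ℝ) * lM X.P X.Bd :=
          mul_le_mul_of_nonneg_right (mul_le_mul_of_nonneg_left (by linarith) z) l0
      _ = _ := by ring
  rw [← sum_mul, ← Nat.cast_sum, c.sum_cw] at a
  have b : X.nS d 2 + X.nS d 0 ≤ X.G.n := by
    rw [nS, nS, ← card_union_of_disjoint (disjoint_filter.2 fun v _ p q => by omega)]
    exact (card_le_card (union_subset (filter_subset ..) (filter_subset ..))).trans (card_range _).le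
  have b' : (X.nS d 2 : ℝ) + X.nS d 0 ≤ X.G.n := by exact_mod_cast b
  have z : (0 : ℝ) ≤ 2 * X.C.Z * lM X.P X.Bd := by positivity
  calc X.offs d ≤ (X.nS d 2 + X.nS d 0) * (2 * X.C.Z * lM X.P X.Bd) := by
        rw [offs, add_mul]; exact add_le_add a le_rfl
    _ ≤ X.G.n * (2 * X.C.Z * X.Lg) :=
        mul_le_mul b' (mul_le_mul_of_nonneg_left l1 (by positivity)) z (by positivity)
    _ = _ := by ring

theorem Ok.Psi_nonneg (h : X.Ok) (c : Cmb X.G d) : 0 ≤ X.Ψ d := by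
  have a := h.offs_le c
  have b : (X.xm : ℝ) ≤ ex (range X.G.n) d.mt.get := by exact_mod_cast h.xm _ c.isM
  have : (0 : ℝ) ≤ X.Au * ((ex (range X.G.n) d.mt.get : ℝ) - X.xm) :=
    mul_nonneg (Nat.cast_nonneg _) (by linarith)
  have : (0 : ℝ) ≤ X.C.Z * (8 * X.nS d 0 + 4 * X.nS d 1 + d.Q.length) := by positivity
  have : (0 : ℝ) ≤ X.Th d := Nat.cast_nonneg _
  rw [Ψ]; linarith

theorem Ok.pot_nonneg (h : X.Ok) (i : X.I s N) : 0 ≤ pot X.P X.Bd N :=
  sum_nonneg fun _ he => Inv.bar_nonneg h i he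

theorem Ok.Pt_le (h : X.Ok) (i : X.Inv (s, d) N) :
    0 ≤ X.Pt s ∧ X.Pt s ≤ X.Tot (s, d) N ∧
      X.Φ s + X.k.AP * pot X.P X.Bd N ≤ X.Tot (s, d) N := by
  have a := h.pot_nonneg i.il.1
  have b := h.Psi_nonneg i.cmb
  have c := h.ip.nonneg i.il.1
  have e : X.Φ s ≤ X.Pt s := phi_le_Pt
  have f : (X.k.AP : ℝ) ≤ X.κ := by exact_mod_cast le_of_add_le_left h.κ
  have z : (0 : ℝ) ≤ X.κ := Nat.cast_nonneg _
  have := mul_le_mul_of_nonneg_right f a
  have := mul_nonneg z a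
  have := mul_nonneg z b
  simp only [Tot]
  refine ⟨by linarith, by linarith, by linarith⟩

theorem Ok.near (h : X.Ok) (i : X.I s N) (a : Arcs X.P.D X.C X.G d N) {e : ℕ} (he : e ∈ N.E) :
    99 * s.rf.get e ≤ 100 * N.X e ∧ 100 * N.X e ≤ 101 * s.rf.get e := by
  obtain ⟨-, hA, -, hr, hn⟩ := h.ip.view i e he
  obtain ⟨p, q⟩ := hr.pos h.sm.1
  have k := (hn.slack h.D_pos hA p q).1
  rw [a.arc e he, arcOf_o1, abs_le] at k
  have k1 : (99 * s.rf.get e : ℝ) ≤ 100 * N.X e := by push_cast at k; linarith [k.1]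
  have k2 : (100 * N.X e : ℝ) ≤ 101 * s.rf.get e := by push_cast at k; linarith [k.2]
  exact ⟨by exact_mod_cast k1, by exact_mod_cast k2⟩

theorem trig2 {D : ℕ} {C : Cf} {c x : ℕ} {r : ℤ} (z : 0 < C.Z) :
    trig D C (snkA C c x) r ↔ (C.Ph : ℤ) * r < x * D := by
  have z' : (0 : ℤ) < C.Z := by exact_mod_cast z
  simp only [trig, snkA, true_and, if_true]
  push_cast
  rw [show (C.Ph : ℤ) * C.Z * r = C.Z * (C.Ph * r) by ring, mul_assoc]
  exact mul_lt_mul_iff_right₀ z'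

theorem trig4 {D : ℕ} {C : Cf} {v : ℕ} {r : ℤ} (z : 0 < C.Z) :
    trig D C (aU D C v) r ↔ (D : ℤ) ≤ r := by
  simp only [trig, aU, true_and]
  rw [if_neg (by omega)]

theorem Ok.calm (h : X.Ok) (i : X.Inv (s, d) N) (l : s.log = []) : Calm X.P.D X.C X.G d N := by
  have z : 0 < X.C.Z := by have := h.Z_pos; omega
  have nt : ∀ e ∈ N.E, ¬trig X.P.D X.C (arcOf X.P.D X.C X.G d e) (s.rf.get e) := fun e he k => by
    have := i.il.2 e he (i.arcs.arc e he ▸ k)
    rw [l] at this; cases this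
  refine ⟨fun c k => ?_, fun v k k' => ?_⟩
  · have he := (i.arcs.mem _).2 (has2.2 k)
    have a := nt _ he
    rw [arcOf2, trig2 z, not_lt] at a
    have b := (h.near i.il.1 i.arcs he).1
    have p : (0 : ℤ) ≤ X.C.Ph := Nat.cast_nonneg _
    have q : (0 : ℤ) ≤ (d.cw.get c + 1) * X.P.D := by positivity
    push_cast at a
    nlinarith [mul_le_mul_of_nonneg_left b p]
  · have he := (i.arcs.mem _).2 (has4.2 ⟨k, k'⟩)
    have a := nt _ he
    rw [arcOf4, trig4 z, not_le] at a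
    have b := (h.near (s := s) i.il.1 i.arcs he).2
    omega

/-- a triggered arc is a starved sink or a half full pending sink -/
theorem Ok.trig_cases (h : X.Ok) (i : X.Inv (s, d) N) {e : ℕ} (k : has X.G d e)
    (t : trig X.P.D X.C (s.arc.get e) (s.rf.get e)) :
    (e % 5 = 2 ∧ isC X.G d (e / 5) ∧ (99 * X.C.Ph : ℤ) * N.X (5 * (e / 5) + 2) ≤
      100 * (d.cw.get (e / 5) + 1) * X.P.D) ∨
    (e % 5 ≠ 2 ∧ e / 5 < X.G.n ∧ d.st.get (e / 5) = 0 ∧
      (99 * X.P.D : ℤ) ≤ 100 * N.X (5 * (e / 5) + 4)) := by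
  have z : 0 < X.C.Z := by have := h.Z_pos; omega
  have he := (i.arcs.mem _).2 k
  rw [(h.ip.view i.il.1 e he).1, i.arcs.arc e he] at t
  have b := h.near (s := s) i.il.1 i.arcs he
  obtain ⟨v, rfl | rfl | rfl | rfl | rfl⟩ := id_cases e
  · rw [arcOf0] at t; exact absurd t.1 (Nat.succ_ne_zero _)
  · rw [arcOf1] at t; exact absurd t.1 (Nat.succ_ne_zero _)
  · rw [arcOf2, trig2 z] at t
    rw [show (5 * v + 2) / 5 = v by omega]
    refine .inl ⟨by omega, has2.1 k, ?_⟩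
    have p : (0 : ℤ) ≤ X.C.Ph := Nat.cast_nonneg _
    have q : (0 : ℤ) ≤ (d.cw.get v + 1) * X.P.D := by positivity
    push_cast at t
    nlinarith [mul_le_mul_of_nonneg_left b.2 p]
  · rw [arcOf3] at t; exact absurd t.1 (Nat.succ_ne_zero _)
  · rw [arcOf4, trig4 z] at t
    rw [show (5 * v + 4) / 5 = v by omega]
    exact .inr ⟨by omega, (has4.1 k).1, (has4.1 k).2, by omega⟩

end Cx

end Crest.Agent.N325.P2
end

-- ▼ part N325/Ml/While
section

/-!
# Row 325 (helper46): while loops paid by a real budget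
-/

set_option autoImplicit false

namespace Crest.Agent.N325.Ml

variable {σ : Type} {g : Gl}

/-- `J s x`: the state `s` is fine and the remaining budget is `x`; every turn is paid by it -/
theorem sp_whileR {c : σ → Bool} {f : σ → R σ} (J : σ → ℝ → Prop)
    (h0 : ∀ s x, J s x → 0 ≤ x)
    (h : ∀ s x, J s x → c s = true → Sp g (f s) fun s' u => J s' (x - 1 - u))
    {n : ℕ} {s : σ} {x : ℝ} (hs : J s x) (hn : x < n) :
    Sp g (whileF c f n s) fun s' u => c s' = false ∧ J s' (x + 1 - u) := by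
  induction n generalizing s x with
  | zero => exact absurd (h0 s x hs) (by simpa using hn)
  | succ n ih =>
    refine ⟨Nat.zero_le _, ?_⟩
    by_cases e : c s = true
    · rw [if_pos e]
      refine (h s x hs e).bind fun s' u k => (ih k ?_).mono ?_
      · have : (0 : ℝ) ≤ u := Nat.cast_nonneg u
        push_cast at hn; linarith
      · rintro s'' v ⟨a, k'⟩
        refine ⟨a, ?_⟩
        convert k' using 1
        push_cast; ring
    · rw [if_neg e]
      refine ⟨Bool.eq_false_iff.2 e, ?_⟩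
      simpa using hs

/-- the same for a fold: the budget may depend on the rest of the list -/
theorem sp_foldR {α : Type} {f : α → σ → R σ} (J : List α → σ → ℝ → Prop)
    (h : ∀ a l s x, J (a :: l) s x → Sp g (f a s) fun s' u => J l s' (x - 1 - u))
    {l : List α} {s : σ} {x : ℝ} (hs : J l s x) :
    Sp g (foldL f l s) fun s' u => J [] s' (x + 1 - u) := by
  induction l generalizing s x with
  | nil => exact ⟨Nat.zero_le _, show J [] s (x + 1 - ((1 + 0 : ℕ) : ℝ)) by simpa using hs⟩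
  | cons a l ih =>
    refine ⟨Nat.zero_le _, (h a l s x hs).bind fun s' u k => (ih k).mono fun s'' v k' => ?_⟩
    convert k' using 1
    push_cast; ring

end Crest.Agent.N325.Ml
end

-- ▼ part N325/Ml/Loop
section

/-!
# Row 325, part II (helper46): the main loop
-/

set_option autoImplicit false
open Finset

namespace Crest.Agent.N325.P2

open Crest.Agent.N325.Tw Crest.Agent.N325.Ip Crest.Agent.N325.Mt Crest.Agent.N325.Bf

namespace Cx
variable {T : Type} (X : Cx T)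

/-- the invariant of the loop with the budget `x` -/
def LJ (u : S T × Bool × Bool) (x : ℝ) : Prop :=
  ∃ N, X.Inv u.1 N ∧ (u.2.1 = false → Quiet X.P N) ∧
    (u.2.2 = false → u.2.1 = false ∧ u.1.1.log = [] ∧ u.1.2.Q = []) ∧
    X.Tot u.1 N + (if u.2.1 = true then (X.k.AQ : ℝ) + 1 else 0) + (if u.2.2 = true then (1 : ℝ) else 0) ≤ x ∧
    x + X.Rm * (2 * X.k.AU) ≤ X.Bd.F + 1

variable {X} {lab unl : S T → ℕ → R (S T)} {ins edg : S T → ℕ → List ℕ → R (S T)}

theorem LJ.nonneg (h : X.Ok) {u : S T × Bool × Bool} {x : ℝ} (k : X.LJ u x) : 0 ≤ x := by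
  obtain ⟨N, i, -, -, a, -⟩ := k
  obtain ⟨p, q, -⟩ := h.Pt_le (s := u.1.1) (d := u.1.2) i
  have : (0 : ℝ) ≤ if u.2.1 = true then (X.k.AQ : ℝ) + 1 else 0 := by split_ifs <;> positivity
  have : (0 : ℝ) ≤ if u.2.2 = true then (1 : ℝ) else 0 := by split_ifs <;> positivity
  exact le_trans (by change _ ≤ X.Tot (u.1.1, u.1.2) N + _ + _; linarith) a

theorem Post.lj (h : X.Ok) {s s' : S T} {N : Net} {t : ℕ} {x : ℝ} (p : X.Post s N s' t)
    (a : X.Tot s N + 0 + 1 ≤ x) (b : x + X.Rm * (2 * X.k.AU) ≤ X.Bd.F + 1) :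
    X.LJ (s', true, true) (x - 1 - (t + 0 : ℕ)) := by
  obtain ⟨N', i, p⟩ := p
  have k : (25000 : ℝ) * (X.k.AU + X.k.AQ + X.k.cl + 1) ≤ X.κ := by exact_mod_cast h.κ_le
  have : (0 : ℝ) ≤ X.k.AU := Nat.cast_nonneg _
  have : (0 : ℝ) ≤ X.k.AQ := Nat.cast_nonneg _
  have : (0 : ℝ) ≤ X.k.cl := Nat.cast_nonneg _
  have : (0 : ℝ) ≤ t := Nat.cast_nonneg _
  refine ⟨N', i, fun k => by simp at k, fun k => by simp at k, ?_, ?_⟩
  · simp only [if_true, add_zero]; linarith
  · simp only [add_zero]; linarith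

theorem sp_step (h : X.Ok) (hl : X.LabelSpec lab) (hu : X.UnlabSpec unl) (hi : X.InsSpec ins)
    (he : X.EdgeSpec edg) (u : S T × Bool × Bool) (x : ℝ) (k : X.LJ u x) (go : u.2.2 = true) :
    Sp X.g (step X.toEnv lab unl ins edg u) fun u' t => X.LJ u' (x - 1 - t) := by
  obtain ⟨⟨s, d⟩, dy, g⟩ := u
  obtain ⟨N, i, hq, -, a, b⟩ := k
  obtain rfl : g = true := go
  obtain ⟨p0, p1, p2⟩ := h.Pt_le i
  have r0 : (0 : ℝ) ≤ X.Rm * (2 * X.k.AU) := by positivity
  have q0 : (0 : ℝ) ≤ X.k.AQ := Nat.cast_nonneg _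
  cases dy with
  | true =>
    simp only [if_true] at a
    rw [step, if_pos rfl]
    refine (h.ip.qui i.il.1 (by linarith)).bind ?_
    rintro s' t ⟨c, c1, i', q, dp, n, u1, u2, u3, u4⟩
    refine ⟨N.add c, ⟨⟨i', fun e m tr => ?_⟩, ⟨i.arcs.mem, i.arcs.arc, ?_⟩, i.cmb, i.q⟩,
      fun _ => q, nofun, ?_, ?_⟩
    · rw [u1]
      by_cases z : e ∈ n
      · exact List.mem_append_left _ z
      · rw [u3 e z] at tr
        exact List.mem_append_right _ (i.il.2 e m tr)
    · exact (i.arcs.cons.add c1).circ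
    · have f : (X.k.AP : ℝ) ≤ X.κ := by exact_mod_cast le_of_add_le_left h.κ
      have := mul_le_mul_of_nonneg_right f (sub_nonneg.2 dp)
      simp only [Tot, Pt, u1, List.length_append, Bool.false_eq_true, if_false, if_true] at a ⊢
      push_cast
      linarith
    · have : (0 : ℝ) ≤ (t + 0 : ℕ) := Nat.cast_nonneg _
      linarith
  | false =>
    simp only [Bool.false_eq_true, if_false, if_true] at a
    have q := hq rfl
    have rm : X.Room (s, d) := by change X.Pt s + _ ≤ _; linarith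
    rw [step, if_neg Bool.false_ne_true]
    rcases el : s.log with _ | ⟨e, l⟩
    · have gd : X.Good d N := ⟨q, h.calm i el⟩
      change Sp _ (stepQ X.toEnv ins edg (s, d)) _
      rw [stepQ]
      rcases eq : d.Q with _ | ⟨o, w⟩
      · exact ⟨N, i, hq, fun _ => ⟨rfl, el, eq⟩, by simpa using (by linarith), by
          simpa using (by linarith)⟩
      · change Sp _ (if _ then _ else if _ then _ else _) _
        split_ifs with c1 c2
        · refine ⟨N, ⟨i.il, ⟨i.arcs.mem, i.arcs.arc, i.arcs.circ⟩, { i.cmb with }, 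
            i.q.pop h.wf i.cmb eq c1⟩, hq, nofun, ?_, by simpa using (by linarith)⟩
          have z := X.Psi_Q (d := d) d.pr w
          have z1 : (20000 : ℝ) ≤ X.C.Z := by exact_mod_cast h.Z_pos
          have z2 : (25000 : ℝ) ≤ X.κ := by
            have := h.κ_le; exact_mod_cast (by omega : 25000 ≤ X.κ)
          rw [eq] at z
          simp only [Tot, Bool.false_eq_true, if_false, if_true] at a ⊢
          change X.Ψ { d with Q := w } = _ at z
          rw [z]
          simp only [List.length_cons]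
          push_cast
          nlinarith
        · exact (he _ N o w i rm gd eq c1 c2).bind fun s' t p => p.lj h a b
        · exact (hi _ N o w i rm gd eq c1 c2).bind fun s' t p => p.lj h a b
    · change Sp _ (stepL X.toEnv lab unl (s, d) e l) _
      rw [stepL]
      split_ifs with c1 c2
      · rcases h.trig_cases i c1.1 c1.2 with z | z
        · exact (hu _ N _ i rm q z.2.1 z.2.2).bind fun s' t p => p.lj h a b
        · exact absurd c2 z.1
      · rcases h.trig_cases i c1.1 c1.2 with z | z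
        · exact absurd z.1 c2
        · exact (hl _ N _ i rm q z.2.1 z.2.2.1 z.2.2.2).bind fun s' t p => p.lj h a b
      · obtain ⟨i1, i2⟩ := h.ip.setLog l i.il.1
        refine ⟨N, ⟨⟨i1, fun e' m tr => ?_⟩, i.arcs, i.cmb, i.q⟩, hq, nofun, ?_,
          by simpa using (by linarith)⟩
        · rcases List.mem_cons.1 (el ▸ i.il.2 e' m tr) with rfl | z
          · exact absurd ⟨(i.arcs.mem _).1 m, (h.ip.view i.il.1 _ m).1 ▸ tr⟩ c1
          · exact z
        · have z : (100 : ℝ) ≤ X.k.cl := by exact_mod_cast h.cl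
          simp only [Tot, Pt, el, List.length_cons, Bool.false_eq_true, if_false, if_true] at a ⊢
          rw [i2]
          push_cast at a ⊢
          linarith

/-- **the main loop** -/
theorem sp_loop (h : X.Ok) (hl : X.LabelSpec lab) (hu : X.UnlabSpec unl) (hi : X.InsSpec ins)
    (he : X.EdgeSpec edg) (hf : X.Bd.F < X.P.fu) {s : S T} {N : Net} (i : X.Inv s N) {x : ℝ}
    (a : X.Tot s N + X.k.AQ + 2 ≤ x) (b : x + X.Rm * (2 * X.k.AU) ≤ X.Bd.F) :
    Sp X.g (loop X.toEnv lab unl ins edg s) fun s' t => ∃ N', X.Inv s' N' ∧ X.Good s'.2 N' ∧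
      s'.2.Q = [] ∧ (t : ℝ) ≤ x + 1 := by
  have r0 : (0 : ℝ) ≤ X.Rm * (2 * X.k.AU) := by positivity
  have f : (X.Bd.F : ℝ) < X.P.fu := by exact_mod_cast hf
  refine (Ml.sp_whileR X.LJ (fun _ _ k => k.nonneg h) (sp_step h hl hu hi he) (x := x)
    ⟨N, i, fun k => by simp at k, fun k => by simp at k, by simp only [if_true]; linarith, by linarith⟩ (by linarith)).bind ?_
  rintro u t ⟨go, k⟩
  have z := k.nonneg h
  obtain ⟨N', i', q, e, -⟩ := k
  obtain ⟨e1, e2, e3⟩ := e go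
  exact ⟨N', i', ⟨q e1, h.calm (s := u.1.1) (d := u.1.2) i' e2⟩, e3, by
    simp only [add_zero]; linarith⟩

end Cx

end Crest.Agent.N325.P2
end

-- ▼ part N325/Ml/Phase

/-!
# Row 325, part II (helper46): the phases
-/

set_option autoImplicit false
open Finset

namespace Crest.Agent.N325.P2

open Crest.Agent.N325.Tw Crest.Agent.N325.Ip Crest.Agent.N325.Mt Crest.Agent.N325.Bf

variable {T : Type} (lab unl : Env T → S T → ℕ → R (S T))
  (ins edg : Env T → S T → ℕ → List ℕ → R (S T)) (ini : Env T → T → Arr ℕ → R (S T))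

/-- one phase in the environment `E` -/
def phaseE (E : Env T) (u : T × Arr ℕ) : R (T × Arr ℕ) :=
  phase E (lab E) (unl E) (ins E) (edg E) (ini E) u

/-- all phases, from the empty matching; `cf j` computes the parameters of the phase `j` -/
def p2 (run : Cmd × T → R (T × Rep × Bool)) (P : Pm) (G : Gf) (cf : ℕ → R Cf) (kb0 J : ℕ)
    (t0 : T) : R (Arr ℕ) :=
  tabP (fun v => v) G.n (.cst 0) >>= fun m =>
    forN (fun j u => call cf j >>= fun C => phaseE lab unl ins edg ini ⟨run, P, C, G⟩ u) J kb0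
      (t0, m) >>= fun u => pure u.2

/-- what a phase needs -/
structure Ph (c0 : ℕ) (X : Cx T) : Prop where
  ok : X.Ok
  lab : X.LabelSpec (lab X.toEnv)
  unl : X.UnlabSpec (unl X.toEnv)
  ins : X.InsSpec (ins X.toEnv)
  edg : X.EdgeSpec (edg X.toEnv)
  ini : ∃ T0 : ℕ, X.InitSpec (ini X.toEnv) T0 ∧ ∀ gap : ℕ,
    gap * X.C.B ≤ 2 * c0 * X.G.n * X.P.D →
      T0 + X.κ * X.Au * gap + X.k.AQ + 2 + X.Rm * (2 * X.k.AU) ≤ X.Bd.F
  fin : X.EndSpec c0
  fu : X.Bd.F < X.P.fu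
  att : ∃ m, IsM (range X.G.n) X.G.E m ∧ ex (range X.G.n) m = X.xm

variable {lab unl ins edg ini} {c0 : ℕ}

theorem Ph.sp {X : Cx T} (p : Ph lab unl ins edg ini c0 X) {u : T × Arr ℕ} (sh : X.Sh u.1)
    (hm : IsM (range X.G.n) X.G.E u.2.get)
    (gp : ∀ m, IsM (range X.G.n) X.G.E m → ex (range X.G.n) u.2.get * X.C.B ≤
      ex (range X.G.n) m * X.C.B + 2 * c0 * X.G.n * X.P.D) :
    Sp X.g (phaseE lab unl ins edg ini X.toEnv u) fun u' t => X.Sh u'.1 ∧
      IsM (range X.G.n) X.G.E u'.2.get ∧ (∀ m, IsM (range X.G.n) X.G.E m →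
        ex (range X.G.n) u'.2.get * X.C.B ≤ ex (range X.G.n) m * X.C.B + c0 * X.G.n * X.P.D) ∧
      t ≤ X.Bd.F + 1 := by
  obtain ⟨T0, hi, hT⟩ := p.ini
  obtain ⟨m0, i0, e0⟩ := p.att
  obtain ⟨gap, eg⟩ := Nat.exists_eq_add_of_le (p.ok.xm _ hm)
  have g1 := gp m0 i0
  rw [eg, e0, add_mul] at g1
  have g2 : ((T0 + X.κ * X.Au * gap + X.k.AQ + 2 + X.Rm * (2 * X.k.AU) : ℕ) : ℝ) ≤ X.Bd.F := by
    exact_mod_cast hT gap (by omega)
  push_cast at g2
  refine (hi u.1 u.2 sh hm).bind ?_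
  rintro s t ⟨N, i, -, a⟩
  rw [eg] at a
  push_cast at a
  have t0 : (0 : ℝ) ≤ t := Nat.cast_nonneg _
  have r0 : (0 : ℝ) ≤ X.Rm * (2 * X.k.AU) := by positivity
  refine (Cx.sp_loop p.ok p.lab p.unl p.ins p.edg p.fu i le_rfl (by linarith)).bind ?_
  rintro s' t' ⟨N', i', gd, q, b⟩
  refine ⟨p.ok.ip.sh i'.il.1, i'.cmb.isM, p.fin s' N' i' gd q, ?_⟩
  have : ((t + (t' + 0) : ℕ) : ℝ) ≤ (X.Bd.F + 1 : ℕ) := by push_cast; linarith
  exact_mod_cast this

/-- **part II**: all phases -/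
theorem sp_p2 {run : Cmd × T → R (T × Rep × Bool)} {P : Pm} {G : Gf} {cf : ℕ → R Cf}
    {kb0 J F : ℕ} {g : Gl} {Sh : T → Prop} {t0 : T} (X : ℕ → Cx T)
    (hX : ∀ j, kb0 ≤ j → j < kb0 + J → Ph lab unl ins edg ini c0 (X j) ∧ (X j).run = run ∧
      (X j).P = P ∧ (X j).G = G ∧ (X j).g = g ∧ (X j).Sh = Sh ∧ (X j).C.kb = j ∧
      (X j).Bd.F = F ∧ Sp g (cf j) fun C t => C = (X j).C ∧ t ≤ F)
    (hJ : 0 < J) (h0 : 2 ^ kb0 ≤ 2 * c0 * P.D) (sh : Sh t0) :
    Sp g (p2 lab unl ins edg ini run P G cf kb0 J t0) fun m t =>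
      IsM (range G.n) G.E m.get ∧ (∀ m2, IsM (range G.n) G.E m2 →
        ex (range G.n) m.get * 2 ^ (kb0 + J - 1) ≤
          ex (range G.n) m2 * 2 ^ (kb0 + J - 1) + c0 * G.n * P.D) ∧
      t ≤ J * (2 * F + 9) + G.n + 9 := by
  refine (sp_tabP _ _ _).bind fun m t1 ⟨a, e1⟩ => ?_
  refine (sp_forN' (fun j (u : T × Arr ℕ) => Sh u.1 ∧ IsM (range G.n) G.E u.2.get ∧
    ∀ m2, IsM (range G.n) G.E m2 →
      ex (range G.n) u.2.get * 2 ^ j ≤ ex (range G.n) m2 * 2 ^ j + 2 * c0 * G.n * P.D) (2 * F + 2)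
    ?_ ⟨sh, isM_id.congr fun v hv => (a v).trans (if_pos (mem_range.1 hv)), fun m2 _ => ?_⟩).bind ?_
  · rintro j u a b ⟨s1, s2, s3⟩
    obtain ⟨p, rfl, rfl, rfl, rfl, rfl, k, rfl, c⟩ := hX j a b
    refine sp_bind.2 (sp_call.2 (c.mono ?_))
    rintro _ t ⟨rfl, c⟩
    have e := p.ok.B.1
    rw [k] at e
    refine (p.sp s1 s2 (e ▸ s3)).mono ?_
    rintro u' t' ⟨z1, z2, z3, z4⟩
    refine ⟨⟨z1, z2, fun m2 i2 => ?_⟩, by omega⟩
    have := z3 m2 i2
    rw [e] at this
    rw [pow_succ]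
    linarith
  · have := ex_le (V := range G.n) (m := m.get)
    rw [card_range] at this
    have := Nat.mul_le_mul this h0
    exact le_add_left (this.trans_eq (by ring))
  · rintro u t ⟨⟨-, z2, z3⟩, z4⟩
    refine ⟨z2, fun m2 i2 => ?_, ?_⟩
    · have := z3 m2 i2
      rw [show kb0 + J = kb0 + J - 1 + 1 by omega, pow_succ] at this
      linarith
    · have := Nat.mul_le_mul_left J (by omega : 2 * F + 2 + 1 ≤ 2 * F + 9)
      omega

end Crest.Agent.N325.P2
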